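import Vale.Agent.P014T.Tp.Odd

/-! # P014U: from the primary components to the Tate-Shafarevich group -/

set_option autoImplicit false
set_option linter.all false

namespace Vale.Agent.P014U.Tq

open Vale.Agent.P014 Vale.Agent.P014T
open scoped Classical

theorem act_mul (E : WeierstrassCurve ℚ) (σ τ : GQ) (x : Pbar E) :
    act E (σ * τ) x = act E σ (act E τ x) := by
  cases x <;> rfl

/-- **the group is torsion** -/
theorem sha_tor (E : WeierstrassCurve ℚ) (x : Sha E) : ∃ n : ℕ, n ≠ 0 ∧ n • x = 0 := by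
  obtain ⟨⟨c, lc, co, lt⟩, rfl⟩ := QuotientAddGroup.mk_surjective x
  have c1 : c 1 = 0 := by
    have := co 1 1
    rw [mul_one, show act E 1 (c 1) = c 1 by cases c 1 <;> rfl] at this
    simpa using this
  let U : Subgroup GQ :=
    { carrier := {g | c g = 0}
      one_mem' := c1
      mul_mem' := fun {g h} a b => by
        rw [Set.mem_setOf_eq] at a b ⊢
        rw [co, a, b, map_zero, add_zero]
      inv_mem' := fun {g} a => by
        have := co g⁻¹ g
        rw [Set.mem_setOf_eq] at a ⊢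
        rwa [inv_mul_cancel, c1, a, map_zero, add_zero, eq_comm] at this }
  have : @IsGalois ℚ _ (AlgebraicClosure ℚ) _ (AlgebraicClosure.instAlgebra ℚ) := inferInstance
  have : IsGalois ℚ (AlgebraicClosure ℚ) := this
  have : Finite (GQ ⧸ U) := U.quotient_finite_of_isOpen (lc.isOpen_fiber 0)
  have := Fintype.ofFinite (GQ ⧸ U)
  have e : ∀ g : GQ, c (g : GQ ⧸ U).out = c g := fun g => by
    obtain ⟨u, k⟩ := QuotientGroup.mk_out_eq_mul U g
    rw [k, co, show c u = 0 from u.2, map_zero, add_zero]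
  refine ⟨Fintype.card (GQ ⧸ U), Fintype.card_ne_zero, ?_⟩
  rw [← QuotientAddGroup.mk_nsmul, QuotientAddGroup.eq_zero_iff]
  refine ⟨-∑ y : GQ ⧸ U, c y.out, fun σ => ?_⟩
  have k : ∑ y : GQ ⧸ U, c (σ • y).out = ∑ y : GQ ⧸ U, c y.out :=
    Equiv.sum_comp (MulAction.toPerm σ) fun y : GQ ⧸ U => c y.out
  have k' : ∀ y : GQ ⧸ U, c (σ • y).out = c σ + act E σ (c y.out) := fun y => by
    rw [← co, ← e (σ * y.out)]
    exact congrArg (fun z : GQ ⧸ U => c z.out) (MulAction.Quotient.coe_smul_out U σ y).symm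
  simp only [k', Finset.sum_add_distrib, Finset.sum_const, Finset.card_univ, ← map_sum] at k
  change Fintype.card (GQ ⧸ U) • c σ = _
  rw [map_neg, eq_sub_of_add_eq k]
  abel

/-- a torsion group with finite primary components, almost all trivial -/
theorem fin_of {G : Type} [AddCommGroup G] (t : ∀ x : G, ∃ n : ℕ, n ≠ 0 ∧ n • x = 0)
    (S : Finset ℕ) (f : ∀ p ∈ S, Finite (AddCommGroup.primaryComponent G p))
    (z : ∀ p : ℕ, p.Prime → p ∉ S → ∀ (k : ℕ) (x : G), p ^ k • x = 0 → x = 0) : Finite G := by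
  have := fun p : S => f p p.2
  let φ : (∀ p : S, AddCommGroup.primaryComponent G p) →+ G :=
    ∑ p : S, (AddCommGroup.primaryComponent G p).subtype.comp (Pi.evalAddMonoidHom _ p)
  have key : ∀ n : ℕ, n ≠ 0 → ∀ x : G, n • x = 0 → x ∈ φ.range := by
    intro n
    induction n using Nat.recOnPosPrimePosCoprime with
    | prime_pow p k hp _ =>
      intro _ x e
      by_cases m : p ∈ S
      · refine ⟨Pi.single ⟨p, m⟩ ⟨x, k, e⟩, ?_⟩
        simp only [φ, AddMonoidHom.finset_sum_apply, AddMonoidHom.comp_apply,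
          Pi.evalAddMonoidHom_apply]
        rw [Finset.sum_eq_single ⟨p, m⟩ (fun q _ n => by rw [Pi.single_eq_of_ne n, map_zero])
          (by simp), Pi.single_eq_same]
        rfl
      · rw [z p hp m k x e]
        exact zero_mem _
    | zero => exact fun h => absurd rfl h
    | one =>
      intro _ x e
      rw [one_smul] at e
      exact e ▸ zero_mem _
    | coprime a b ha hb c ia ib =>
      intro _ x e
      obtain ⟨u, v, k⟩ := Nat.isCoprime_iff_coprime.2 c
      rw [← one_zsmul x, ← k, add_smul, mul_smul, mul_smul, natCast_zsmul, natCast_zsmul]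
      exact add_mem (zsmul_mem (ib (by omega) _ (by rwa [← mul_smul, mul_comm])) u)
        (zsmul_mem (ia (by omega) _ (by rwa [← mul_smul])) v)
  exact Finite.of_surjective φ fun x => (t x).elim fun n k => key n k.1 x k.2

/-- `c` times the quotient of the two sides of the formula is an integer at `p` -/
def Pv (E : WeierstrassCurve ℚ) (L : ℂ → ℂ) (p c : ℕ) {r : ℕ} (P : Fin r → E.toAffine.Point) :
    Prop :=
  Finite (shaPrimary E p) ∧ ∃ ρ : ℚ, ρ ≠ 0 ∧ 0 ≤ padicValRat p (c * ρ) ∧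
    iteratedDeriv r L 1 / (r.factorial : ℂ) = (ρ : ℂ) * ((realPeriod E * regulator E P *
      (Nat.card (shaPrimary E p) : ℝ) * (tamagawaProduct E : ℝ) / (torsionOrder E : ℝ) ^ 2 : ℝ) : ℂ)

theorem den_one {q : ℚ} (h : ∀ p : ℕ, p.Prime → 0 ≤ padicValRat p q) : ∃ n : ℤ, q = n := by
  refine ⟨q.num, ((Rat.den_eq_one_iff q).1 (by_contra fun n => ?_)).symm⟩
  obtain ⟨p, hp, d⟩ := Nat.exists_prime_and_dvd n
  have := Fact.mk hp
  have k := h p hp
  have := one_le_padicValNat_of_dvd q.den_nz d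
  rw [padicValRat_def, padicValInt.eq_zero_of_not_dvd fun c => hp.one_lt.ne' (Nat.eq_one_of_dvd_coprimes
    q.reduced (Int.natCast_dvd.1 c) d)] at k
  omega

variable {E : WeierstrassCurve ℚ} {L : ℂ → ℂ} {r c : ℕ} {P : Fin r → E.toAffine.Point}

theorem quo (hX : iteratedDeriv r L 1 ≠ 0) {ρ ρ' : ℚ} {s s' : ℕ}
    (e : iteratedDeriv r L 1 / (r.factorial : ℂ) = (ρ : ℂ) * ((realPeriod E * regulator E P *
      (s : ℝ) * (tamagawaProduct E : ℝ) / (torsionOrder E : ℝ) ^ 2 : ℝ) : ℂ))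
    (e' : iteratedDeriv r L 1 / (r.factorial : ℂ) = (ρ' : ℂ) * ((realPeriod E * regulator E P *
      (s' : ℝ) * (tamagawaProduct E : ℝ) / (torsionOrder E : ℝ) ^ 2 : ℝ) : ℂ)) :
    ρ * s = ρ' * s' := by
  have k : ∀ (ρ : ℚ) (s : ℕ), (ρ : ℂ) * ((realPeriod E * regulator E P * (s : ℝ) *
      (tamagawaProduct E : ℝ) / (torsionOrder E : ℝ) ^ 2 : ℝ) : ℂ) = ((ρ * s : ℚ) : ℂ) *
      ((realPeriod E * regulator E P * (tamagawaProduct E : ℝ) / (torsionOrder E : ℝ) ^ 2 : ℝ) : ℂ) :=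
    fun ρ s => by
      push_cast
      ring
  rw [k] at e e'
  exact Rat.cast_injective (α := ℂ) (mul_right_cancel₀ (right_ne_zero_of_mul (e ▸ div_ne_zero hX
    (Nat.cast_ne_zero.2 r.factorial_ne_zero))) (e.symm.trans e'))

/-- **all primes together** -/
theorem fin (hc : c ≠ 0) (hX : iteratedDeriv r L 1 ≠ 0) (f2 : Finite (shaPrimary E 2))
    (h2 : PPart E L 2 P (Nat.card (shaPrimary E 2))) (h : ∀ p : ℕ, p.Prime → p ≠ 2 → Pv E L p c P) :
    Finite (Sha E) ∧ ∃ ρ : ℚ, ρ ≠ 0 ∧ padicValRat 2 ρ = 0 ∧ (∃ n : ℤ, c * ρ = n) ∧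
      iteratedDeriv r L 1 / (r.factorial : ℂ) = (ρ : ℂ) * ((realPeriod E * regulator E P *
        (Nat.card (Sha E) : ℝ) * (tamagawaProduct E : ℝ) / (torsionOrder E : ℝ) ^ 2 : ℝ) : ℂ) := by
  have c0 : (c : ℚ) ≠ 0 := Nat.cast_ne_zero.2 hc
  have f : Finite (Sha E) := by
    obtain ⟨τ, t0, -, e⟩ := h2
    have n0 : (c * (τ * Nat.card (shaPrimary E 2))).num ≠ 0 := Rat.num_ne_zero.2
      (mul_ne_zero c0 (mul_ne_zero t0 (Nat.cast_ne_zero.2
        (Nat.card_ne_zero.2 ⟨⟨(0 : AddCommMonoid.primaryComponent (Sha E) 2)⟩, f2⟩))))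
    refine fin_of (sha_tor E) (insert 2 (c * (τ * Nat.card (shaPrimary E 2))).num.natAbs.primeFactors)
      (fun p m => ?_) fun p hp m k x z => by_contra fun x0 => ?_
    · by_cases p2 : p = 2
      · exact p2 ▸ f2
      exact (h p (Nat.prime_of_mem_primeFactors ((Finset.mem_insert.1 m).resolve_left p2)) p2).1
    have := Fact.mk hp
    rw [Finset.mem_insert, not_or] at m
    obtain ⟨g, ρ, r0, v, e'⟩ := h p hp m.1
    have g' : Finite (AddCommMonoid.primaryComponent (Sha E) p) := g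
    have s0 : Nat.card (shaPrimary E p) ≠ 0 :=
      Nat.card_ne_zero.2 ⟨⟨(0 : AddCommMonoid.primaryComponent (Sha E) p)⟩, g⟩
    have d : p ∣ Nat.card (shaPrimary E p) := by
      obtain ⟨j, o⟩ := AddCommMonoid.mem_primaryComponent_iff_addOrderOf.1
        (⟨k, z⟩ : x ∈ AddCommMonoid.primaryComponent (Sha E) p)
      have := addOrderOf_dvd_natCard (⟨x, k, z⟩ : AddCommGroup.primaryComponent (Sha E) p)
      rw [← AddSubgroup.addOrderOf_coe, o] at this
      exact (dvd_pow_self p fun j0 => x0 (AddMonoid.addOrderOf_eq_one_iff.1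
        (by rw [o, j0, pow_zero]))).trans this
    have := one_le_padicValNat_of_dvd s0 d
    have k := padicValRat.mul (p := p) (mul_ne_zero c0 r0) (Nat.cast_ne_zero.2 s0)
    rw [mul_assoc, ← quo hX e e', padicValRat.of_nat, padicValRat_def,
      padicValInt.eq_zero_of_not_dvd fun d => m.2 (Nat.mem_primeFactors.2
        ⟨hp, Int.natCast_dvd.1 d, Int.natAbs_ne_zero.2 n0⟩)] at k
    omega
  obtain ⟨τ, t0, v2, e⟩ := Top.ppart_sha h2 f
  refine ⟨f, τ, t0, v2, den_one fun p hp => ?_, e⟩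
  have := Fact.mk hp
  by_cases p2 : p = 2
  · subst p2
    rw [padicValRat.mul c0 t0, v2, add_zero]
    exact zero_le_padicValRat_of_nat c
  obtain ⟨g, ρ, r0, v, e'⟩ := h p hp p2
  obtain ⟨m, d, k⟩ : ∃ m : ℕ, ¬ p ∣ m ∧ Nat.card (Sha E) = m * Nat.card (shaPrimary E p) :=
    Top.card_pr (Sha E) p
  have s0 : (Nat.card (shaPrimary E p) : ℚ) ≠ 0 := Nat.cast_ne_zero.2
    (Nat.card_ne_zero.2 ⟨⟨(0 : AddCommMonoid.primaryComponent (Sha E) p)⟩, g⟩)
  have q := quo hX e e'
  rw [k, Nat.cast_mul, ← mul_assoc] at q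
  rwa [← mul_right_cancel₀ s0 q, ← mul_assoc, padicValRat.mul (mul_ne_zero c0 t0)
    (Nat.cast_ne_zero.2 fun z : m = 0 => d (z ▸ dvd_zero _)), padicValRat.of_nat,
    padicValNat.eq_zero_of_not_dvd d, Nat.cast_zero, add_zero] at v

end Vale.Agent.P014U.Tq
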