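import Vale.Agent.P014T.Top
import Vale.Agent.P014T.Gt.Elc
import Vale.Agent.P014T.Tp.Lh

/-! # P014U: the Euler factors of the curve and of the form -/

set_option autoImplicit false
set_option linter.all false

open WeierstrassCurve NumberField Matrix UpperHalfPlane
open scoped Classical

namespace Vale.Agent.P014U.Tq

open Vale.Agent.P014T Vale.Agent.P014T.Top Lc Sm Gt P004F P027M.K
open Vale.Agent.P014 (GlobalMinimal IsHasseWeil)
open P004M.TE (al mt bs rho Tm)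

variable {W : WeierstrassCurve ℤ} {A B : ℤ} {u r s t : ℚ} {p N : ℕ} {G : ℍ → ℂ} {a : ℕ → ℤ}

theorem ex_W (h : El A B) : ∃ (W : WeierstrassCurve ℤ) (u r s t : ℚ), W.Δ ≠ 0 ∧
    GlobalMinimal (Wq W) ∧ Md (Wq W) A B u r s t := by
  obtain ⟨D, hm⟩ := ex_min (Wq (sI A B))
  obtain ⟨W, e⟩ := Lc.ex_int hm.1
  have k : Md (Wq W) A B D.u D.r D.s D.t := by
    have := Vc.ch_of D (Wq (sI A B))
    rwa [e, show Wq (sI A B) = ⟨0, 0, 0, A, B⟩ by ext <;> simp [sI]] at this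
  rw [e] at hm
  refine ⟨W, _, _, _, _, fun z => hq h ?_, hm, k⟩
  have := Md.disc k
  rw [map_Δ, z, map_zero, mul_zero] at this
  linear_combination -this / 16

theorem al_np (hΔ : W.Δ ≠ 0) (hm : GlobalMinimal (Wq W)) (k : Md (Wq W) A B u r s t)
    (hp : p.Prime) : al A B p = p + ep W p - np W p ∧ al A B (p ^ 2) = al A B p ^ 2 - ep W p * p := by
  have : (Wq W).IsElliptic := ⟨by simpa using hΔ⟩
  obtain ⟨a1, a2⟩ := lf_all W hΔ hm hp
  replace a2 := a2 0
  rw [Lk.lf_md k] at a1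
  rw [zero_add, zero_add, pow_one, pow_zero, (Lf.lf_mul _).map_one, Lk.lf_md k, Lk.lf_md k,
    ← a1] at a2
  exact ⟨a1, by rw [a2]; ring⟩

theorem np_add (hp : p.Prime) (hb : (p : ℤ) ∣ W.Δ) (hc : (p : ℤ) ∣ W.c₄) : np W p = p := by
  have : Fact p.Prime := ⟨hp⟩
  have z := ZMod.intCast_zmod_eq_zero_iff_dvd
  exact Sg.card_cusp _ ((W.map_Δ _).trans ((z _ p).2 hb)) ((W.map_c₄ _).trans ((z _ p).2 hc))

theorem np_bad (hp : p.Prime) (hb : (p : ℤ) ∣ W.Δ) :
    np W p = p ∨ np W p + 1 = p ∨ np W p = p + 1 := by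
  have : Fact p.Prime := ⟨hp⟩
  have z : (W.map (Int.castRingHom (ZMod p))).Δ = 0 :=
    (W.map_Δ _).trans ((ZMod.intCast_zmod_eq_zero_iff_dvd _ p).2 hb)
  by_cases c : (W.map (Int.castRingHom (ZMod p))).c₄ = 0
  · exact .inl (Sg.card_cusp _ z c)
  · exact .inr ((em _).imp (Sg.card_split _ z c) (Sg.card_nonsplit _ z))

/-- no invariants: the reduction is additive -/
theorem add_of_no (h : El A B) (hp : p.Prime) (h2 : p ≠ 2) (n : No (mt (hq h)) p) :
    al A B p = 0 ∧ al A B (p ^ 2) = 0 := by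
  obtain ⟨W, u, r, s, t, hΔ, hm, k⟩ := ex_W h
  obtain ⟨a1, a2⟩ := al_np hΔ hm k hp
  obtain ⟨P, o⟩ := P022K.GW.Pl.ex_ov hp
  by_cases hb : (p : ℤ) ∣ W.Δ
  · rw [ep, if_pos hb] at a1 a2
    by_cases hc : (p : ℤ) ∣ W.c₄
    · rw [np_add hp hb hc] at a1
      rw [a2, a1]
      simp
    · obtain ⟨-, R, r0, r1, r2, r3, -⟩ := m2 hΔ k o h2 hb hc
      refine absurd (n P o ((bs (hq h)).equivFun (TM.mk R r0 r2)) fun g i => ?_)
        ((bs (hq h)).equivFun.map_ne_zero_iff.2 fun z =>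
          r1 ((congrArg (TM.cp 1) z).trans (map_zero _)))
      rw [mt_vec, show rho _ _ g (TM.mk R r0 r2) = TM.mk R r0 r2 from TM.ext (r3 g i)]
  · exact (one_ne_zero (n P o 1 fun g i => by rw [(gd (hq h) k h2 hb P o).1 g i, one_mulVec])).elim

variable (a A B p) in
/-- the Euler factor of the curve is trivial, or it is the one of the form -/
def Cm : Prop :=
  al A B p = 0 ∧ al A B (p ^ 2) = 0 ∨ a p = al A B p ∧ a (p ^ 2) = al A B (p ^ 2)

theorem lhu (h : El A B) (rn : P004N.RN N G a) (lg : Lg h N a 1) (hp : p.Prime) (h2 : p ≠ 2) :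
    Cm A B p a := by
  have c := P004N.H461.pfCf N G a rn
  have e : (fun g => sd 1 g • mt (hq h) g) = fun g => P004M.TE.mt (hq h) g := by
    funext g
    rw [show sd 1 g = 1 from if_pos (P004S.nu_one_left g), one_smul]
  by_cases n : No (mt (hq h)) p
  · exact .inl (add_of_no h hp h2 n)
  have k := lg p hp h2
  rw [e] at k
  obtain ⟨P, o⟩ := P022K.GW.Pl.ex_ov hp
  have p0 : (p : ℤ) ≠ 0 := Nat.cast_ne_zero.2 hp.ne_zero
  right
  rcases (k.resolve_left n).2 with ⟨d, b⟩ | ⟨d, b⟩ <;>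
    rcases (elc A B h p hp h2).2 with ⟨b1, b2⟩ | ⟨b1, b2⟩
  · obtain ⟨φ, f⟩ := P022D.W.exists_phi o.1 o.2.1 o.2.2
    have q : a p = al A B p := Int.cast_injective (((b P o).2 φ f).symm.trans ((b2 P o).2 φ f))
    have := c.good p hp d 0
    rw [pow_zero, c.one, zero_add, zero_add, pow_one] at this
    exact ⟨q, by rw [this, q]; linear_combination b1⟩
  · obtain ⟨g, i, j⟩ := (b2 P o).1
    exact absurd ((b P o).1 g i) j
  · obtain ⟨g, i, j⟩ := (b P o).1
    exact absurd ((b2 P o).1 g i) j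
  · simp only [No, not_forall] at n
    obtain ⟨P, o, v, hv, v0⟩ := n
    obtain ⟨φ, f⟩ := P022D.W.exists_phi o.1 o.2.1 o.2.2
    have q : a p = al A B p := mul_right_cancel₀ p0 (smul_left_injective ℤ v0
      (((b P o).2 v hv φ f).symm.trans ((b2 P o).2 v hv φ f)))
    have := c.bad p hp d 1
    rw [pow_one] at this
    exact ⟨q, by rw [this, q, ← b1, sq]⟩

theorem lh2 {E : WeierstrassCurve ℚ} [E.IsElliptic] {L : ℂ → ℂ} (hL : IsHasseWeil E L)
    (hm : Md E A B u r s t) (hn : Nf A B N G a) (hp : p.Prime) : Cm A B p a := by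
  obtain ⟨S, -, -, ht⟩ := Lk.at_fin hm hn.rn hn.fin
  simp only [Cm, ← Lk.lf_md hm]
  refine or_iff_not_imp_left.2 fun d => ?_
  have k := (Lh.lge hn.rn ht hL hp d).2.2
  exact ⟨by simpa using (k 1).symm, (k 2).symm⟩

end Vale.Agent.P014U.Tq
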